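import Vale.Agent.P223.H399.FinalMT

namespace Vale.Agent.Results.P223.RicciFlowTime

open scoped ContDiff
open MeasureTheory Vale.Agent.P223.J

/-- The dimensional constant `3 n (n κ^2)^(n/2)`. -/
noncomputable def cst (n : ℕ) : ℝ := 3 * n * (n * kap n ^ 2) ^ ((n : ℝ) / 2)

/-- Let `M` be a closed connected oriented smooth manifold of dimension `n ≥ 4` (`c` is an oriented
smooth atlas), `κ = n - 2 + √n`, `C = 3 n (n κ^2)^(n/2)` and `T > 0`.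
(1) If the Ricci flow `g t` exists for `0 ≤ t < T` then
`‖M‖ ≤ C (∫ (Scal⁻)^(n/2) + T^(-n/2) Vol)` for the initial metric `g 0`; in particular, if
`Scal ≥ -s` then `‖M‖ ≤ C (s^(n/2) + T^(-n/2)) Vol`; if the scalar curvature of `g 0` is a negative
constant `-s` then `‖M‖ ≤ C (1 + (s T)^(-n/2)) ∫ (Scal⁻)^(n/2)` for all metrics conformal to `g 0`.
(2) If `g t` is a smooth family of metrics, `Ric + ∂g/∂t / 2 ≥ -ρ g`, `tr ∂g/∂t / 2 ≤ σ`,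
`∫ max(0, ρ + σ/(n-2))^(n/2) ≤ B` and `Vol ≤ V` for `0 ≤ t ≤ T`, then
`(1 - θ) ‖M‖ ≤ κ^n B + (n - 1) θ (n κ^2 / (2 θ T))^(n/2) V` for `0 < θ < 1`. -/
theorem result (n : ℕ) (hn : 4 ≤ n) (M : Type) [TopologicalSpace M] [CompactSpace M] [T2Space M]
    [ConnectedSpace M] [MeasurableSpace M] [BorelSpace M] (c : M → Ch n M) (hc : Atl c)
    (T : ℝ) (hT : 0 < T) :
    (∀ (g : ℝ → M → Mtx n) (μ : Measure M), RFT c g T → Vol c (g 0) μ →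
      sv c ≤ ENNReal.ofReal (cst n) *
        (L n μ (sn c (g 0)) + ENNReal.ofReal (T ^ (-((n : ℝ) / 2))) * μ Set.univ) ∧
      (∀ s : ℝ, 0 ≤ s → (∀ p, -s ≤ scal (g 0 p) (c p p)) →
        sv c ≤ ENNReal.ofReal (cst n * (s ^ ((n : ℝ) / 2) + T ^ (-((n : ℝ) / 2)))) * μ Set.univ) ∧
      ∀ s : ℝ, 0 < s → (∀ p, scal (g 0 p) (c p p) = -s) →
        ∀ (f : M → ℝ) (μ' : Measure M), Sm c f → Vol c (conf c f (g 0)) μ' →
          sv c ≤ ENNReal.ofReal (cst n * (1 + (s * T) ^ (-((n : ℝ) / 2)))) *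
            L n μ' (sn c (conf c f (g 0)))) ∧
    ∀ (g : ℝ → M → Mtx n) (μ : ℝ → Measure M) (ρ σ : ℝ → M → ℝ) (B V : ENNReal), Fam c g →
      Continuous (fun p : ℝ × M => ρ p.1 p.2) → Continuous (fun p : ℝ × M => σ p.1 p.2) →
      (∀ t, 0 ≤ t → t ≤ T → Vol c (g t) (μ t) ∧ Mv c g (ρ t) (σ t) t ∧
        L n (μ t) (fun p => max 0 (ρ t p + σ t p / ((n : ℝ) - 2))) ≤ B ∧ μ t Set.univ ≤ V) →
      ∀ θ : ℝ, 0 < θ → θ < 1 → ENNReal.ofReal (1 - θ) * sv c ≤ ENNReal.ofReal (kap n ^ n) * B +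
        ENNReal.ofReal (((n : ℝ) - 1) * θ * (n * kap n ^ 2 / (2 * θ * T)) ^ ((n : ℝ) / 2)) * V := by
  refine ⟨fun g μ hg hμ => ⟨Vale.Agent.P223.H399.ricciFlowM hn hc hT g μ hg hμ,
    fun s hs h => Vale.Agent.P223.H399.scalM hn hc hT g μ hg hμ s hs h,
    fun s hs h f μ' hf hμ' =>
      Vale.Agent.P223.H399.confM hn hc hT g μ hg hμ s hs h f μ' hf hμ'⟩,
    fun g μ ρ σ B V hg hρ hσ h θ hθ hθ1 =>
      Vale.Agent.P223.H399.movingM hn hc T hT g μ hg ρ σ hρ hσ B V h θ hθ hθ1⟩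

end Vale.Agent.Results.P223.RicciFlowTime
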